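import Mathlib

/-!
P181, block L1 of board #5453 (helper984): expansion of a `q`-th power modulo cubes of the tail.
-/

namespace Vale.Agent.P181.H180

open Finset

section Aux

variable {K A : Type*} [CommRing K] [CommRing A] [Algebra K A]

lemma prod_mem_pow {S : Submodule K A} {ι : Type*} (s : Finset ι) (f : ι → A)
    (h : ∀ i ∈ s, f i ∈ S) : ∏ i ∈ s, f i ∈ S ^ s.card := by
  classical
  induction s using Finset.induction_on with
  | empty =>
    rw [Finset.prod_empty, Finset.card_empty, pow_zero, Submodule.mem_one]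
    exact ⟨1, map_one _⟩
  | insert a s ha ih =>
    rw [Finset.prod_insert ha, Finset.card_insert_of_notMem ha, pow_succ']
    exact Submodule.mul_mem_mul (h a (Finset.mem_insert_self a s))
      (ih fun i hi => h i (Finset.mem_insert_of_mem hi))

lemma mulW {Z U : Submodule K A} {a b : A} {k n k' n' : ℕ} (ha : a ∈ Z ^ k * U ^ n)
    (hb : b ∈ Z ^ k' * U ^ n') : a * b ∈ Z ^ (k + k') * U ^ (n + n') := by
  rw [pow_add, pow_add, mul_mul_mul_comm]
  exact Submodule.mul_mem_mul ha hb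

lemma powW {Z U : Submodule K A} {a : A} {k n : ℕ} (ha : a ∈ Z ^ k * U ^ n) (m : ℕ) :
    a ^ m ∈ Z ^ (k * m) * U ^ (n * m) := by
  rw [pow_mul, pow_mul, ← mul_pow]
  exact Submodule.pow_mem_pow _ ha _

lemma monoW {Z U : Submodule K A} (h : Z ≤ U) (k j n : ℕ) :
    Z ^ (k + j) * U ^ n ≤ Z ^ k * U ^ (j + n) := by
  rw [pow_add, pow_add, mul_assoc]
  exact mul_le_mul_right (mul_le_mul_left (pow_le_pow_left' h j) _) _

/-- `(F+x+y)^(s+2)` modulo `Z^3`. -/
lemma tail_mem {Z U : Submodule K A} (h : Z ≤ U) {c : ℕ} {F x y : A} (hF : F ∈ U ^ (c + 2))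
    (hx : x ∈ Z * U ^ (c + 1)) (hy : y ∈ Z ^ 2 * U ^ c) (s : ℕ) :
    (F + x + y) ^ (s + 2) - (F ^ (s + 2) + ((s + 2 : ℕ) : A) * F ^ (s + 1) * (x + y)
      + (((s + 2).choose 2 : ℕ) : A) * F ^ s * x ^ 2) ∈ Z ^ 3 * U ^ ((s + 2) * (c + 2) - 3) := by
  have hx' : x ∈ Z ^ 1 * U ^ (c + 1) := by rwa [pow_one]
  have hF' : F ∈ Z ^ 0 * U ^ (c + 2) := by rwa [pow_zero, one_mul]
  have hz : x + y ∈ Z ^ 1 * U ^ (c + 1) := by
    refine add_mem hx' ?_
    have := monoW h 1 1 c hy
    rwa [add_comm 1 c] at this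
  have hE : (s + 2) * (c + 2) - 3 = s * c + 2 * s + 2 * c + 1 := by
    have : (s + 2) * (c + 2) = s * c + 2 * s + 2 * c + 1 + 3 := by ring
    omega
  rw [hE]
  have hexp : (F + x + y) ^ (s + 2) - (F ^ (s + 2) + ((s + 2 : ℕ) : A) * F ^ (s + 1) * (x + y)
      + (((s + 2).choose 2 : ℕ) : A) * F ^ s * x ^ 2) =
      ∑ m ∈ range s, (x + y) ^ (m + 3) * F ^ (s + 2 - (m + 3)) * (((s + 2).choose (m + 3) : ℕ) : A)
      + (((s + 2).choose 2 : ℕ) : A) * (F ^ s * (2 * (x * y) + y * y)) := by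
    have h1 : (F + x + y) ^ (s + 2) = ((x + y) + F) ^ (s + 2) := by ring
    rw [h1, add_pow, Finset.sum_range_succ', Finset.sum_range_succ', Finset.sum_range_succ']
    have e1 : s + 2 - (0 + 1) = s + 1 := by omega
    have e2 : s + 2 - (0 + 1 + 1) = s := by omega
    simp only [add_assoc, Nat.reduceAdd, zero_add, e1, e2, Nat.sub_zero, pow_zero, pow_one,
      Nat.choose_zero_right, Nat.choose_one_right]
    push_cast
    ring
  rw [hexp]
  refine add_mem (sum_mem fun m hm => ?_) ?_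
  · have hm' : m < s := Finset.mem_range.mp hm
    have e1 : s + 2 - (m + 3) = s - 1 - m := by omega
    rw [mul_comm _ (((s + 2).choose (m + 3) : ℕ) : A), ← nsmul_eq_mul]
    refine nsmul_mem ?_ _
    rw [e1]
    have := mulW (powW hz (m + 3)) (powW hF' (s - 1 - m))
    have e2 : 1 * (m + 3) + 0 * (s - 1 - m) = 3 + m := by ring
    rw [e2] at this
    have := monoW h 3 m _ this
    have e3 : m + ((c + 1) * (m + 3) + (c + 2) * (s - 1 - m)) = s * c + 2 * s + 2 * c + 1 := by
      obtain ⟨r, hr⟩ : ∃ r, s = r + 1 + m := ⟨s - 1 - m, by omega⟩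
      subst hr
      have : r + 1 + m - 1 - m = r := by omega
      rw [this]; ring
    rwa [e3] at this
  · rw [← nsmul_eq_mul]
    refine nsmul_mem ?_ _
    have hxy : x * y ∈ Z ^ 3 * U ^ (2 * c + 1) := by
      have := mulW hx' hy
      have e : c + 1 + c = 2 * c + 1 := by ring
      rwa [e] at this
    have hyy : y * y ∈ Z ^ 3 * U ^ (2 * c + 1) := by
      have := mulW hy hy
      have := monoW h 3 1 _ this
      have e : 1 + (c + c) = 2 * c + 1 := by ring
      rwa [e] at this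
    have h2 : 2 * (x * y) + y * y ∈ Z ^ 3 * U ^ (2 * c + 1) := by
      refine add_mem ?_ hyy
      have e : 2 * (x * y) = x * y + x * y := two_mul _
      rw [e]; exact add_mem hxy hxy
    have := mulW (powW hF' s) h2
    have e1 : 0 * s + 3 = 3 := by ring
    have e2 : (c + 2) * s + (2 * c + 1) = s * c + 2 * s + 2 * c + 1 := by ring
    rwa [e1, e2] at this

lemma prod_pow_mem {S : Submodule K A} {ι : Type*} (s : Finset ι) (f : ι → A) (e : ι → ℕ)
    (h : ∀ i ∈ s, f i ∈ S) : ∏ i ∈ s, f i ^ e i ∈ S ^ (∑ i ∈ s, e i) := by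
  classical
  induction s using Finset.induction_on with
  | empty =>
    rw [Finset.prod_empty, Finset.sum_empty, pow_zero, Submodule.mem_one]
    exact ⟨1, map_one _⟩
  | insert a s ha ih =>
    rw [Finset.prod_insert ha, Finset.sum_insert ha, pow_add]
    exact Submodule.mul_mem_mul (Submodule.pow_mem_pow _ (h a (Finset.mem_insert_self a s)) _)
      (ih fun i hi => h i (Finset.mem_insert_of_mem hi))

end Aux

lemma sum_one_off {J : Type*} [Fintype J] [DecidableEq J] (a : J) {c : ℕ}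
    (hc : Fintype.card J = c + 2) : ∑ j : J, (if j = a then 0 else 1) = c + 1 := by
  have h : ∑ j : J, (if j = a then 0 else 1) + ∑ j : J, (if j = a then 1 else 0) = c + 2 := by
    rw [← Finset.sum_add_distrib, ← hc, ← Finset.card_univ, Finset.card_eq_sum_ones]
    exact Finset.sum_congr rfl fun j _ => by split_ifs <;> rfl
  rw [Finset.sum_ite_eq' Finset.univ a (fun _ => 1)] at h
  simp only [Finset.mem_univ, if_true] at h
  omega

lemma sum_two_off {J : Type*} [Fintype J] [DecidableEq J] (a b : J) (hab : a ≠ b) {c : ℕ}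
    (hc : Fintype.card J = c + 2) : ∑ j : J, (if j = a ∨ j = b then 0 else 1) = c := by
  have h : ∑ j : J, (if j = a ∨ j = b then 0 else 1) + (∑ j : J, (if j = a then 1 else 0)
      + ∑ j : J, (if j = b then 1 else 0)) = c + 2 := by
    rw [← Finset.sum_add_distrib, ← Finset.sum_add_distrib, ← hc, ← Finset.card_univ,
      Finset.card_eq_sum_ones]
    refine Finset.sum_congr rfl fun j _ => ?_
    by_cases h1 : j = a
    · have h2 : j ≠ b := fun h => hab (h1.symm.trans h)
      simp [h1, hab]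
    · by_cases h2 : j = b <;> simp [h1, h2, hab.symm]
  rw [Finset.sum_ite_eq' Finset.univ a (fun _ => 1),
    Finset.sum_ite_eq' Finset.univ b (fun _ => 1)] at h
  simp only [Finset.mem_univ, if_true] at h
  omega

section Main

variable {K A J α : Type*} [Field K] [CharZero K] [CommRing A] [Algebra K A]
  [Fintype J] [DecidableEq J] [Fintype α]

/-- **L1 (pow_expand) of #5453.** -/
theorem pow_expand (B Z : Submodule K A) (q : ℕ) (hq : 2 ≤ q) (m : J → A) (hm : ∀ j, m j ∈ B)
    (rho : α → J) (hrho : Function.Injective rho) (i : α → J) (hi : ∀ l, i l ≠ rho l)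
    (w v : α → A) (hw : ∀ l, w l ∈ Z) (hv : ∀ l, v l ∈ Z ^ 2) (t : α → K) :
    ∃ G ∈ (B ⊔ Z) ^ Fintype.card J,
      G ^ q - (∏ j, m j ^ q + ∑ l, (t l • ((q : K) •
          (w l * ∏ j, m j ^ (q - if j = rho l then 1 else 0)
            + v l * ∏ j, m j ^ (q - (if j = rho l then 1 else 0) - if j = i l then 1 else 0)))
        + (t l) ^ 2 • (((q : K) * (q - 1) / 2) •
          (w l ^ 2 * ∏ j, m j ^ (q - 2 * if j = rho l then 1 else 0)))))
        ∈ Z ^ 3 * (B ⊔ Z) ^ (q * Fintype.card J - 3) := by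
  classical
  have hmU : ∀ j, m j ∈ B ⊔ Z := fun j => Submodule.mem_sup_left (hm j)
  rcases isEmpty_or_nonempty α with hα | ⟨⟨l0⟩⟩
  · refine ⟨∏ j, m j, ?_, ?_⟩
    · rw [← Finset.card_univ]
      exact prod_mem_pow _ _ fun j _ => hmU j
    · rw [Finset.prod_pow]
      simp
  obtain ⟨s, rfl⟩ : ∃ s, q = s + 2 := ⟨q - 2, by omega⟩
  obtain ⟨c, hc⟩ : ∃ c, Fintype.card J = c + 2 := by
    have : 1 < Fintype.card J := Fintype.one_lt_card_iff.mpr ⟨i l0, rho l0, hi l0⟩
    exact ⟨Fintype.card J - 2, by omega⟩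
  set U := B ⊔ Z with hU
  have hZU : Z ≤ U := le_sup_right
  set F : A := ∏ j, m j with hFdef
  set Fl : α → A := fun l => ∏ j, m j ^ (if j = rho l then 0 else 1) with hFl
  set Fi : α → A := fun l => ∏ j, m j ^ (if j = rho l ∨ j = i l then 0 else 1) with hFi
  set Fll : α → α → A := fun l l' => ∏ j, m j ^ (if j = rho l ∨ j = rho l' then 0 else 1) with hFll
  have hF : F ∈ U ^ (c + 2) := by
    rw [← hc, ← Finset.card_univ]
    exact prod_mem_pow _ _ fun j _ => hmU j
  have hFlm : ∀ l, Fl l ∈ U ^ (c + 1) := fun l => by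
    have := prod_pow_mem Finset.univ m (fun j => if j = rho l then 0 else 1) (fun j _ => hmU j)
    rwa [sum_one_off (rho l) hc] at this
  have hFim : ∀ l, Fi l ∈ U ^ c := fun l => by
    have := prod_pow_mem Finset.univ m (fun j => if j = rho l ∨ j = i l then 0 else 1)
      (fun j _ => hmU j)
    rwa [sum_two_off (rho l) (i l) (hi l).symm hc] at this
  have hFllm : ∀ l l', l ≠ l' → Fll l l' ∈ U ^ c := fun l l' h => by
    have := prod_pow_mem Finset.univ m (fun j => if j = rho l ∨ j = rho l' then 0 else 1)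
      (fun j _ => hmU j)
    rwa [sum_two_off (rho l) (rho l') (fun e => h (hrho e)) hc] at this
  set κ : K := ((s + 2 : ℕ) - 1 : K) / 2 with hκ
  set x : A := ∑ l, t l • (w l * Fl l) with hx
  set V : A := ∑ l, t l • (v l * Fi l) with hV
  set So : A := ∑ p ∈ (Finset.univ : Finset α).offDiag,
    (t p.1 * t p.2) • (w p.1 * w p.2 * Fll p.1 p.2) with hSo
  set y : A := -(κ • So) + V with hy
  have hxm : x ∈ Z * U ^ (c + 1) :=
    sum_mem fun l _ => Submodule.smul_mem _ _ (Submodule.mul_mem_mul (hw l) (hFlm l))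
  have hVm : V ∈ Z ^ 2 * U ^ c :=
    sum_mem fun l _ => Submodule.smul_mem _ _ (Submodule.mul_mem_mul (hv l) (hFim l))
  have hSom : So ∈ Z ^ 2 * U ^ c :=
    sum_mem fun p hp => Submodule.smul_mem _ _ (Submodule.mul_mem_mul
      (by rw [pow_two]; exact Submodule.mul_mem_mul (hw _) (hw _))
      (hFllm _ _ (Finset.mem_offDiag.mp hp).2.2))
  have hym : y ∈ Z ^ 2 * U ^ c := add_mem (neg_mem (Submodule.smul_mem _ _ hSom)) hVm
  have key := tail_mem hZU hF hxm hym s
  have hyU : y ∈ U ^ (c + 2) := by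
    have h1 : Z ^ 2 * U ^ c ≤ U ^ (c + 2) := by
      rw [add_comm c 2, pow_add]
      exact mul_le_mul_left (pow_le_pow_left' hZU 2) _
    exact h1 hym
  have hxU : x ∈ U ^ (c + 2) := by
    have h1 : Z * U ^ (c + 1) ≤ U ^ (c + 2) := by
      rw [pow_succ' U (c + 1)]
      exact mul_le_mul_left hZU _
    exact h1 hxm
  refine ⟨F + x + y, by rw [hc]; exact add_mem (add_mem hF hxU) hyU, ?_⟩
  rw [hc]
  convert key using 2
  -- the algebraic identity
  have e1 : ∀ l, F ^ (s + 1) * Fl l = ∏ j, m j ^ (s + 2 - if j = rho l then 1 else 0) := fun l => by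
    rw [hFdef, ← Finset.prod_pow, hFl, ← Finset.prod_mul_distrib]
    refine Finset.prod_congr rfl fun j _ => ?_
    rw [← pow_add]
    split_ifs <;> congr 1
  have e2 : ∀ l, F ^ (s + 1) * Fi l = ∏ j, m j ^ (s + 2 - (if j = rho l then 1 else 0)
      - if j = i l then 1 else 0) := fun l => by
    rw [hFdef, ← Finset.prod_pow, hFi, ← Finset.prod_mul_distrib]
    refine Finset.prod_congr rfl fun j _ => ?_
    rw [← pow_add]
    by_cases h1 : j = rho l
    · have h2 : j ≠ i l := fun h => hi l (h.symm.trans h1)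
      simp [h1, (hi l).symm]
    · by_cases h2 : j = i l <;> simp [h1, h2, hi l]
  have e3 : ∀ l, F ^ s * Fl l ^ 2 = ∏ j, m j ^ (s + 2 - 2 * if j = rho l then 1 else 0) :=
    fun l => by
    rw [hFdef, ← Finset.prod_pow, hFl, ← Finset.prod_pow, ← Finset.prod_mul_distrib]
    refine Finset.prod_congr rfl fun j _ => ?_
    rw [← pow_mul, ← pow_add]
    split_ifs <;> congr 1
  have e4 : ∀ l l', l ≠ l' → Fl l * Fl l' = F * Fll l l' := fun l l' h => by
    have hr : rho l ≠ rho l' := fun e => h (hrho e)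
    rw [hFdef, hFl, hFll]
    simp only
    rw [← Finset.prod_mul_distrib, ← Finset.prod_mul_distrib]
    refine Finset.prod_congr rfl fun j _ => ?_
    by_cases h1 : j = rho l
    · have h2 : j ≠ rho l' := fun h => hr (h1.symm.trans h)
      simp [h1, hr]
    · by_cases h2 : j = rho l' <;> simp [h1, h2, hr.symm]
  -- the sums
  set S1 : A := ∑ l, t l • (w l * ∏ j, m j ^ (s + 2 - if j = rho l then 1 else 0)) with hS1
  set S2 : A := ∑ l, t l • (v l * ∏ j, m j ^ (s + 2 - (if j = rho l then 1 else 0)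
    - if j = i l then 1 else 0)) with hS2
  set S3 : A := ∑ l, (t l) ^ 2 • (w l ^ 2 * ∏ j, m j ^ (s + 2 - 2 * if j = rho l then 1 else 0))
    with hS3
  have h1 : F ^ (s + 1) * x = S1 := by
    rw [hx, hS1, Finset.mul_sum]
    refine Finset.sum_congr rfl fun l _ => ?_
    rw [← e1 l, mul_smul_comm]
    congr 1
    ring
  have h2 : F ^ (s + 1) * V = S2 := by
    rw [hV, hS2, Finset.mul_sum]
    refine Finset.sum_congr rfl fun l _ => ?_
    rw [← e2 l, mul_smul_comm]
    congr 1
    ring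
  have h3 : F ^ s * x ^ 2 = S3 + F ^ (s + 1) * So := by
    have hxx : x ^ 2 = ∑ l, (t l) ^ 2 • (w l ^ 2 * Fl l ^ 2) + F * So := by
      rw [pow_two, hx, Finset.sum_mul_sum, ← Finset.sum_product', ← Finset.diag_union_offDiag,
        Finset.sum_union (Finset.disjoint_diag_offDiag _), Finset.sum_diag, hSo, Finset.mul_sum]
      congr 1
      · refine Finset.sum_congr rfl fun l _ => ?_
        rw [smul_mul_smul_comm, ← pow_two, ← pow_two, mul_pow]
      · refine Finset.sum_congr rfl fun p hp => ?_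
        rw [smul_mul_smul_comm, mul_smul_comm]
        congr 1
        have := e4 p.1 p.2 (Finset.mem_offDiag.mp hp).2.2
        linear_combination (w p.1 * w p.2) * this
    rw [hxx, mul_add, hS3, Finset.mul_sum]
    congr 1
    · refine Finset.sum_congr rfl fun l _ => ?_
      rw [← e3 l, mul_smul_comm]
      congr 1
      ring
    · rw [pow_succ]; ring
  have hsum : (∑ l, (t l • (((s + 2 : ℕ) : K) •
          (w l * ∏ j, m j ^ (s + 2 - if j = rho l then 1 else 0)
            + v l * ∏ j, m j ^ (s + 2 - (if j = rho l then 1 else 0) - if j = i l then 1 else 0)))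
        + (t l) ^ 2 • ((((s + 2 : ℕ) : K) * (((s + 2 : ℕ) : K) - 1) / 2) •
          (w l ^ 2 * ∏ j, m j ^ (s + 2 - 2 * if j = rho l then 1 else 0))))) =
      ((s + 2 : ℕ) : K) • S1 + ((s + 2 : ℕ) : K) • S2
        + (((s + 2 : ℕ) : K) * (((s + 2 : ℕ) : K) - 1) / 2) • S3 := by
    rw [hS1, hS2, hS3, Finset.smul_sum, Finset.smul_sum, Finset.smul_sum,
      ← Finset.sum_add_distrib, ← Finset.sum_add_distrib]
    refine Finset.sum_congr rfl fun l _ => ?_
    rw [smul_comm (t l), smul_add, smul_add, smul_comm (t l ^ 2)]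
  have hC : (((s + 2).choose 2 : ℕ) : A)
      = algebraMap K A (((s + 2 : ℕ) : K) * (((s + 2 : ℕ) : K) - 1) / 2) := by
    rw [← Nat.cast_choose_two K (s + 2), map_natCast]
  have hQ : ((s + 2 : ℕ) : A) = algebraMap K A ((s + 2 : ℕ) : K) := by rw [map_natCast]
  rw [hsum, Finset.prod_pow, ← hFdef, hC, hQ, hy]
  simp only [Algebra.smul_def]
  have hk : algebraMap K A (((s + 2 : ℕ) : K) * (((s + 2 : ℕ) : K) - 1) / 2)
      = algebraMap K A ((s + 2 : ℕ) : K) * algebraMap K A κ := by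
    rw [← map_mul, hκ, mul_div_assoc]
  rw [hk]
  linear_combination (-(algebraMap K A ((s + 2 : ℕ) : K))) * h1
    - (algebraMap K A ((s + 2 : ℕ) : K)) * h2
    - (algebraMap K A ((s + 2 : ℕ) : K) * algebraMap K A κ) * h3

/-- `psi` of the second-order part of the power vanishes: from (P) (vanishing on `q`-th powers of
elements of `(B ⊔ Z)^c`) and (V3) (vanishing with one factor in `Z^3`). -/
theorem psi_expand {ι M : Type*} [Fintype ι] [AddCommGroup M] [Module K M]
    (psi : MultilinearMap K (fun _ : ι => A) M)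
    (B Z : Submodule K A) (q : ℕ) (hq : 2 ≤ q)
    (hP : ∀ G ∈ (B ⊔ Z) ^ Fintype.card J, psi (fun _ => G ^ q) = 0)
    (hV3 : ∀ P : ι → A, (∀ p, P p ∈ (B ⊔ Z) ^ (q * Fintype.card J)) →
      (∃ p, P p ∈ Z ^ 3 * (B ⊔ Z) ^ (q * Fintype.card J - 3)) → psi P = 0)
    (hD : 3 ≤ q * Fintype.card J)
    (m : J → A) (hm : ∀ j, m j ∈ B)
    (rho : α → J) (hrho : Function.Injective rho) (i : α → J) (hi : ∀ l, i l ≠ rho l)
    (w v : α → A) (hw : ∀ l, w l ∈ Z) (hv : ∀ l, v l ∈ Z ^ 2) (t : α → K) :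
    psi (fun _ => ∏ j, m j ^ q + ∑ l, (t l • ((q : K) •
          (w l * ∏ j, m j ^ (q - if j = rho l then 1 else 0)
            + v l * ∏ j, m j ^ (q - (if j = rho l then 1 else 0) - if j = i l then 1 else 0)))
        + (t l) ^ 2 • (((q : K) * (q - 1) / 2) •
          (w l ^ 2 * ∏ j, m j ^ (q - 2 * if j = rho l then 1 else 0))))) = 0 := by
  classical
  obtain ⟨G, hG, hr⟩ := pow_expand B Z q hq m hm rho hrho i hi w v hw hv t
  set H : A := ∏ j, m j ^ q + ∑ l, (t l • ((q : K) •
          (w l * ∏ j, m j ^ (q - if j = rho l then 1 else 0)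
            + v l * ∏ j, m j ^ (q - (if j = rho l then 1 else 0) - if j = i l then 1 else 0)))
        + (t l) ^ 2 • (((q : K) * (q - 1) / 2) •
          (w l ^ 2 * ∏ j, m j ^ (q - 2 * if j = rho l then 1 else 0)))) with hH
  have hGU : G ^ q ∈ (B ⊔ Z) ^ (q * Fintype.card J) := by
    rw [mul_comm, pow_mul]
    exact Submodule.pow_mem_pow _ hG _
  have hrU : G ^ q - H ∈ (B ⊔ Z) ^ (q * Fintype.card J) := by
    have h1 : Z ^ 3 * (B ⊔ Z) ^ (q * Fintype.card J - 3) ≤ (B ⊔ Z) ^ (q * Fintype.card J) := by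
      calc Z ^ 3 * (B ⊔ Z) ^ (q * Fintype.card J - 3)
          ≤ (B ⊔ Z) ^ 3 * (B ⊔ Z) ^ (q * Fintype.card J - 3) :=
            mul_le_mul_left (pow_le_pow_left' le_sup_right 3) _
        _ = (B ⊔ Z) ^ (q * Fintype.card J) := by
            rw [← pow_add]; congr 1; omega
    exact h1 hr
  have hfun : (fun _ : ι => H) = (fun _ : ι => G ^ q) + (fun _ : ι => -(G ^ q - H)) := by
    funext p
    simp
  rw [hfun, MultilinearMap.map_add_univ]
  refine Finset.sum_eq_zero fun S _ => ?_
  by_cases hS : S = Finset.univ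
  · subst hS
    rw [Finset.piecewise_univ]
    exact hP G hG
  · obtain ⟨p, hp⟩ : ∃ p, p ∉ S := by
      by_contra hcon
      push Not at hcon
      exact hS (Finset.eq_univ_iff_forall.mpr hcon)
    refine hV3 _ (fun p' => ?_) ⟨p, ?_⟩
    · by_cases hp' : p' ∈ S
      · rw [Finset.piecewise_eq_of_mem _ _ _ hp']
        exact hGU
      · rw [Finset.piecewise_eq_of_notMem _ _ _ hp']
        exact neg_mem hrU
    · rw [Finset.piecewise_eq_of_notMem _ _ _ hp]
      exact neg_mem hr

end Main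

end Vale.Agent.P181.H180
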