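import Vale.Agent.P181.H984.Defs
import Vale.Agent.P181.H180.PowExpand

/-!
P181, block L1 of board #5453 in the literal form of board #5612 (helper984).
-/

namespace Vale.Agent.P181.H180

open Finset Vale.Agent.P181.H984

variable {A : Type*} [CommRing A] [Algebra ℂ A]

lemma choose_cast (s : ℕ) : ((((s + 2) * (s + 1) / 2 : ℕ)) : ℂ)
    = ((s + 2 : ℕ) : ℂ) * (((s + 2 : ℕ) : ℂ) - 1) / 2 := by
  rw [← Nat.cast_choose_two ℂ (s + 2), Nat.choose_two_right]
  rfl

/-- **L1** in the letters of H984. -/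
theorem pow_expand_lit {J α : Type*} [Fintype J] [DecidableEq J] [Fintype α]
    (B Z : Submodule ℂ A) (s : ℕ) (m : J → A) (hm : ∀ j, m j ∈ B)
    (ρ : α → J) (hρ : Function.Injective ρ) (i : α → J) (hi : ∀ l, i l ≠ ρ l)
    (w v : α → A) (hw : ∀ l, w l ∈ Z) (hv : ∀ l, v l ∈ Z ^ 2) (t : α → ℂ) :
    ∃ G ∈ (B ⊔ Z) ^ Fintype.card J, G ^ (s + 2) - (Qp m (fun _ => s + 2) + ∑ l, (t l •
        (((s + 2 : ℕ) : ℂ) • (w l * Qp m (fun j => s + 2 - if j = ρ l then 1 else 0)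
          + v l * Qp m (fun j => s + 2 - (if j = ρ l then 1 else 0) - (if j = i l then 1 else 0))))
      + (t l) ^ 2 • ((((s + 2) * (s + 1) / 2 : ℕ) : ℂ) •
          (w l ^ 2 * Qp m (fun j => s + 2 - if j = ρ l then 2 else 0)))))
        ∈ Z ^ 3 * (B ⊔ Z) ^ ((s + 2) * Fintype.card J - 3) := by
  obtain ⟨G, hG, h⟩ := pow_expand B Z (s + 2) (by omega) m hm ρ hρ i hi w v hw hv t
  refine ⟨G, hG, ?_⟩
  have e : ∀ l, (fun j => s + 2 - if j = ρ l then 2 else 0)
      = (fun j => s + 2 - 2 * if j = ρ l then 1 else 0) := fun l => by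
    funext j; split_ifs <;> rfl
  simp only [e, choose_cast]
  exact h

/-- (P) + (V3) + **L1**: hypothesis (E) of L2. -/
theorem psi_expand_lit {J α ι : Type*} [Fintype J] [DecidableEq J] [Fintype α] [Fintype ι]
    [DecidableEq ι] (B Z : Submodule ℂ A) (s : ℕ) (hc : 2 ≤ Fintype.card J)
    (ψ : MultilinearMap ℂ (fun _ : ι => A) ℂ)
    (hP : PowZero B Z (s + 2) (Fintype.card J) ψ) (hV : V3 B Z ((s + 2) * Fintype.card J) ψ)
    (m : J → A) (hm : ∀ j, m j ∈ B)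
    (ρ : α → J) (hρ : Function.Injective ρ) (i : α → J) (hi : ∀ l, i l ≠ ρ l)
    (w v : α → A) (hw : ∀ l, w l ∈ Z) (hv : ∀ l, v l ∈ Z ^ 2) (t : α → ℂ) :
    ψ (fun _ => Qp m (fun _ => s + 2) + ∑ l, (t l •
        (((s + 2 : ℕ) : ℂ) • (w l * Qp m (fun j => s + 2 - if j = ρ l then 1 else 0)
          + v l * Qp m (fun j => s + 2 - (if j = ρ l then 1 else 0) - (if j = i l then 1 else 0))))
      + (t l) ^ 2 • ((((s + 2) * (s + 1) / 2 : ℕ) : ℂ) •
          (w l ^ 2 * Qp m (fun j => s + 2 - if j = ρ l then 2 else 0))))) = 0 := by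
  have h := psi_expand ψ B Z (s + 2) (by omega) hP hV (by nlinarith [Nat.zero_le s])
    m hm ρ hρ i hi w v hw hv t
  have e : ∀ l, (fun j => s + 2 - if j = ρ l then 2 else 0)
      = (fun j => s + 2 - 2 * if j = ρ l then 1 else 0) := fun l => by
    funext j; split_ifs <;> rfl
  simp only [e, choose_cast]
  exact h

end Vale.Agent.P181.H180
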